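import Vale.Agent.P348.Final

open Vale.Agent.P348 in
/-- For every even `L ≥ 4` the spin-one Heisenberg ring Hamiltonian `H_L` has a least eigenvalue,
and if `E0` is that least eigenvalue then some eigenvalue `E1` satisfies `E0 < E1 ≤ E0 + 7`.
Hence the gap `γ_L` to the next distinct eigenvalue is at most `7`, uniformly in `L`. -/
theorem Vale.Agent.Results.P348.GapUpperBound.result (L : ℕ) [NeZero L] (hL : 4 ≤ L)
    (hev : Even L) :
    (∃ E0 : ℝ, IsLeast {E : ℝ | IsEig L E} E0) ∧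
    ∀ E0 : ℝ, IsLeast {E : ℝ | IsEig L E} E0 →
      ∃ E1 : ℝ, IsEig L E1 ∧ E0 < E1 ∧ E1 ≤ E0 + 7 :=
  ⟨exists_least_eig (by omega), fun E0 hE0 => gap_le_seven hL hev E0 hE0⟩
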